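import Vale.Agent.P022G.Col0
import Vale.Agent.P022G.Pt.Defs3

/-!
# P022G: the ring data at a curve (instance of `Pt.RD`) and the statements about it
-/

set_option linter.all false

noncomputable section

namespace Vale.Agent.P022G.In

open NumberField IsLocalRing MvPowerSeries
open Vale.Agent.P022 Vale.Agent.P022G.R Vale.Agent.P022G.Loc Vale.Agent.P022G.Pt
open Vale.Agent.P022D.Sel (M2)
open Vale.Agent.P022D.Core (PS io y1)
open Vale.Agent.P022E.Loc (Pl)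

variable {O F : Type} [CommRing O] [Field F] {S : Dat O F} {L : Pl O} {β : Type}
  {τ ι' : β → Type} (K : Kx O β τ ι' L.C) {ι : Type} (G : Gs S L K.g ι) (r : ℕ)

/-- the ring which acts on the modules -/
abbrev PP (O ι : Type) (r : ℕ) : Type := PS O (Sy (ι ⊕ Fin r) ⊕ Fin r)

/-- the framed ring -/
abbrev S0 (τ : β → Type) (S : Dat O F) (L : Pl O) (ι : Type) (r : ℕ) : Type :=
  PS O (V0 τ L ι S.T r)

/-- its cover -/
abbrev SS (τ : β → Type) (S : Dat O F) (L : Pl O) (ι : Type) (r : ℕ) : Type :=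
  PS O (V0 τ L ι S.T r ⊕ Fin r)

/-- the structure map of the cover (a definition, to be used with `letI`) -/
abbrev alg (τ : β → Type) (S : Dat O F) (L : Pl O) (ι : Type) (r : ℕ) :
    Algebra (S0 τ S L ι r) (SS τ S L ι r) := (io O (V0 τ L ι S.T r) r).toAlgebra

/-- the symbols of level zero among all symbols -/
def eA (ι : Type) (r : ℕ) : Sy ι ↪ Sy (ι ⊕ Fin r) ⊕ Fin r :=
  (Function.Embedding.inl.sumMap (Function.Embedding.inl.sumMap
    (Function.Embedding.inl.prodMap Function.Embedding.inl))).trans Function.Embedding.inl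

/-- the projection to level zero -/
def kA (O ι : Type) [CommRing O] (r : ℕ) : PP O ι r →+* PS O (Sy ι) :=
  (killCompl (R := O) (eA ι r) : PP O ι r →ₐ[O] _)

/-- the projection which kills the `y1` -/
def kY (O σ : Type) [CommRing O] (r : ℕ) : PS O (σ ⊕ Fin r) →+* PS O σ :=
  (killCompl (R := O) (Function.Embedding.inl : σ ↪ σ ⊕ Fin r) : PS O (σ ⊕ Fin r) →ₐ[O] _)

/-- the blocks -/
abbrev DD (S : Dat O F) (ι : Type) (r : ℕ) := K.D (fun γ : L.C => (γ : ℕ)) (Rs (ι ⊕ Fin r) S.T)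

/-- the trace of an auxiliary generator -/
def tq {σ : Type} (e : Sy (ι ⊕ Fin r) → σ) (i : Fin r) : PS O σ := trS (G.rcr r) e (Sum.inr i)

/-- its determinant -/
def dq {σ : Type} (e : Sy (ι ⊕ Fin r) → σ) (i : Fin r) : PS O σ :=
  aS (G.rcr r) e (Sum.inr i) * dS (G.rcr r) e (Sum.inr i) - xS (G.rcr r) e (Sum.inr i) (Sum.inr i)

/-- the equations of the type `J` in the framed ring -/
def IJ (S : Dat O F) (ι : Type) (r : ℕ) (J : Finset L.C) : Ideal (S0 τ S L ι r) :=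
  Ideal.span {u | (∃ l ∈ J, u = ((DD K S ι r).T l).trace ∨ u = ((DD K S ι r).Φ l).trace ∨
    u = ((DD K S ι r).T l * (DD K S ι r).Φ l).trace) ∨
    ∃ l, l ∉ J ∧ ∃ i j, u = ((DD K S ι r).T l - 1) i j}

/-- **the ring data** of the framed curve `θ` and the further equations `k` -/
def rd (ϖ : O) {V κ : Type} [CommRing V] (θ : S0 τ S L ι r →+* V) (k : κ → S0 τ S L ι r) :
    RD (PP O ι r) (S0 τ S L ι r) (SS τ S L ι r) L.C (Fin r) where
  ψ := psiS O S L τ ι r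
  𝔭 := RingHom.ker (θ.comp (kY O _ r))
  𝔱 := (t0 K G r).map (io O _ r)
  𝔞 := rk0 (G.rcr r) Sum.inl (Sum.inl G.i0)
  𝔢 := G.aG.comap (kA O ι r)
  E := Rel.IK (DD K S ι r) k
  π := C ϖ
  π₀ := C ϖ
  y := y1 O _
  α := fun i => tq K G r (e0 r) i - 2
  β := fun i => dq K G r (e0 r) i - tq K G r (e0 r) i + 1
  𝔯 := Ideal.span (Set.range fun i => y1 O _ i ^ 2 - io O _ r (tq K G r (e0 r) i - 2) * y1 O _ i +
    io O _ r (dq K G r (e0 r) i - tq K G r (e0 r) i + 1))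
  τP := fun l => tauP (G.rcr r) Sum.inl (Sum.inl (G.iτ l))
  DP := fun l => trS (G.rcr r) Sum.inl (Sum.inl (G.iφ l))
  IP := IPt (G.rcr r) Sum.inl (fun l => Sum.inl (G.iτ l)) fun l => Sum.inl (G.iφ l)
  τl := fun l => Set.range fun p : Fin 2 × Fin 2 => ((DD K S ι r).T l - 1) p.1 p.2
  Dl := fun l => ((DD K S ι r).Φ l).trace
  IJ := IJ K S ι r
  a := 4 * S.T.card - 1
  d := 4 * S.T.card - 1 + (Fintype.card (Fin r ⊕ Fin r) + 2)

/-- **the data of a curve with its further equations** -/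
structure Cu [IsLocalRing O] [Fintype ι] [Fintype β] [∀ b, Fintype (τ b)] [∀ b, Fintype (ι' b)]
    (ϖ : O) {V κ : Type} [CommRing V] [Fintype κ] [DecidableEq κ] (t : V) (j : O →+* V)
    (ρ : GQ →* GL (Fin 2) V) (θA : PS O (Sy ι) →+* V) (θ : S0 τ S L ι r →+* V)
    (k : κ → S0 τ S L ι r) (jc : κ → V0 τ L ι S.T r) (U : Ultrafilter ℕ) (q : ℕ → Fin r → ℕ)
    (τ' : ℕ → Fin r → GQ) : Prop where
  okg : OkG L S
  ok : K.Ok L S ϖ
  irr : Irreducible t
  jp : j ϖ = 0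
  crv : G.Crv t j ρ θA
  cf : Cf K G r j ρ θ
  aG : G.aG ≤ RingHom.ker θA
  nred : G.Irr (RingHom.ker θA)
  col : ∀ a, jc a ∉ Set.range (DD K S ι r).e
  mn : Rel.mn k jc ∉ RingHom.ker θ
  card : 4 * S.T.card - 1 + (Fintype.card (Fin r ⊕ Fin r) + 2) + Fintype.card (Σ b, ι' b) +
    4 * Fintype.card L.C + Fintype.card κ = Fintype.card (V0 τ L ι S.T r)
  hU : (U : Filter ℕ) ≤ Filter.atTop
  aux : ∀ n i, q n i ∉ S.T ∧ ∃ P, P022E.GW.Ov (q n i) P ∧ P022E.GW.Gn (q n i) P (τ' n i)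
  lim : ∀ a, ∃ z : ℕ → S0 τ S L ι r, P022D.PA.Cv (U : Filter ℕ) z (k a) ∧
    ∀ n, z n ∈ Kn K G r (q n) (τ' n)

end Vale.Agent.P022G.In
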